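import Vale.Agent.P113.H947.Solve
import Vale.Agent.P113.H281.Detect

/-!
# P113: the solution for the directions and profiles of `H281.Detect`
-/

open Set
open scoped ContDiff

namespace Vale.Agent.P113.H947

open H854

/-- the directions of the four shears -/
def dir4 : Fin 4 → Fin 3 := ![2, 0, 1, 2]

theorem DD_eq : DD dir4 = H281.dirs := by
  funext j
  fin_cases j <;> rfl

theorem FF_eq (q : ℝ) (G : Fin 4 → E3 → ℝ) : FF q G = H281.profs q G := by
  funext j
  fin_cases j <;> rfl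

/-- From the force lists (in the form of `exists_force_lists`) to the solution. -/
theorem solve_of {G : Fin 4 → E3 → ℝ}
    (hG : ∀ j, ContDiff ℝ ∞ (G j)) (hp : ∀ j, Per3 (G j))
    (hind : ∀ (q : ℝ) (j : Fin 5) (x : E3) (s : ℝ),
      H281.profs q G j (x + s • H281.dirs j) = H281.profs q G j x)
    (hA : ∃ A : Fin 3 → List Term, (∀ i, ∀ τ ∈ A i, τ.Valid) ∧
      (∀ i, ∀ τ ∈ A i, τ.isPeriodic = true) ∧
      ∀ ν t x i, force ν A t x i = ∑ j : Fin 4, (deriv (th 5 j.succ) t * G j x -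
        ν * (th 5 j.succ t * lap (G j) x)) * ee (dir4 j) i) :
    ∃ A : Fin 3 → List Term, (∀ i, ∀ τ ∈ A i, τ.Valid) ∧
      (∀ i, ∀ τ ∈ A i, τ.isPeriodic = true) ∧
      ∀ (start : Machine × List ℕ → RatCode) (Mw : Machine × List ℕ) (ν : ℝ), 0 < ν →
        IsUniqueSmoothSolution ν (force ν (comp A start Mw))
          (vel H281.dirs (th 5) (H281.profs (ratVal (start Mw)) G)) (fun _ _ => 0) := by
  obtain ⟨A, h1, h2, h3⟩ := hA
  refine ⟨A, h1, h2, fun start Mw ν hν => ?_⟩
  have hi : ∀ j x (s : ℝ), G j (x + s • ee (dir4 j)) = G j x := by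
    intro j x s
    have := hind 0 j.succ x s
    rw [← FF_eq, ← DD_eq] at this
    simpa [FF, DD] using this
  rw [← FF_eq, ← DD_eq]
  exact isUniqueSmoothSolution h3 hG hp hi start Mw hν

end Vale.Agent.P113.H947
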