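import Vale.Agent.P113.Defs

/-!
# P113: the compiler

The compiler outputs fixed lists of terms, and one nonperiodic term in the component `y` with a
coefficient depending on `(M, w)`.
-/

open Set
open scoped ContDiff

namespace Vale.Agent.P113.H947

/-- the rational number `100 r` -/
def mul100 (r : RatCode) : RatCode := (r.1, 100 * r.2.1, r.2.2)

theorem ratVal_mul100 (r : RatCode) : ratVal (mul100 r) = 100 * ratVal r := by
  unfold ratVal mul100
  push_cast
  ring

/-- the bump `ρ'(10 s - 1)` -/
def startBump : Bump := ⟨Sum.inl 1, 0, (true, 10, 0), (true, 1, 0)⟩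

/-- the term `100 r κ⁻¹ ρ'(10 t - 1)` -/
def startTerm (r : RatCode) : Term :=
  ⟨mul100 r, 0, -1, [], [(false, startBump)], fun _ => []⟩

theorem startBump_valid : startBump.Valid := by
  refine ⟨?_, ?_⟩
  · simp [startBump, ratVal]
  · intro l hl
    simp [startBump] at hl

theorem startBump_fn (s : ℝ) : startBump.fn s = iteratedDeriv 1 rho (10 * s - 1) := by
  simp [startBump, Bump.fn, ratVal]

theorem startTerm_valid (r : RatCode) : (startTerm r).Valid := by
  refine ⟨?_, ?_, ?_⟩
  · simp [startTerm]
  · simp [startTerm, startBump_valid]
  · simp [startTerm]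

theorem startTerm_isPeriodic (r : RatCode) : (startTerm r).isPeriodic = false := by
  simp [startTerm, Term.isPeriodic]

theorem startTerm_eval (ν : ℝ) (r : RatCode) (t : ℝ) (x : Fin 3 → ℝ) :
    (startTerm r).eval ν t x = 100 * ratVal r * kappa⁻¹ * iteratedDeriv 1 rho (10 * t - 1) := by
  simp [startTerm, Term.eval, startBump_fn, ratVal_mul100]

theorem mul100_primrec : Primrec mul100 :=
  Primrec.pair Primrec.fst (Primrec.pair
    (Primrec.nat_mul.comp (Primrec.const 100) (Primrec.fst.comp Primrec.snd))
    (Primrec.snd.comp Primrec.snd))

theorem startTerm_primrec : Primrec startTerm := by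
  have h : Primrec fun r : RatCode => Term.equiv.symm (mul100 r, 0, -1, [],
      [(false, startBump)], fun _ => []) := by
    refine Primrec.of_equiv_symm.comp ?_
    exact Primrec.pair mul100_primrec (Primrec.const _)
  exact h

/-- Computability of functions to `Fin n → α`. -/
theorem computable_fin {α β : Type} [Primcodable α] [Primcodable β] {n : ℕ} {f : α → Fin n → β}
    (h : ∀ i, Computable fun a => f a i) : Computable f := by
  have h1 : Computable fun a => List.Vector.ofFn fun i => f a i :=
    Computable.vector_ofFn (f := fun i a => f a i) h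
  have h2 : Computable fun v : List.Vector β n => (fun i => v.get i : Fin n → β) := by
    have h3 : Primrec ((Equiv.vectorEquivFin β n).symm).symm := Primrec.of_equiv_symm
    exact h3.to_comp
  refine (h2.comp h1).of_eq fun a => ?_
  funext i
  simp

/-- The compiler. -/
def comp (A : Fin 3 → List Term) (start : Machine × List ℕ → RatCode) :
    Machine × List ℕ → Fin 3 → List Term :=
  fun Mw i => if i = 1 then startTerm (start Mw) :: A i else A i

theorem comp_computable (A : Fin 3 → List Term) {start : Machine × List ℕ → RatCode}
    (h : Computable start) : Computable (comp A start) := by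
  refine computable_fin fun i => ?_
  unfold comp
  by_cases hi : i = 1
  · simp only [hi, if_true]
    exact Computable.list_cons.comp (startTerm_primrec.to_comp.comp h) (Computable.const _)
  · simp only [hi, if_false]
    exact Computable.const _

theorem force_comp (ν : ℝ) (A : Fin 3 → List Term) (start : Machine × List ℕ → RatCode)
    (Mw : Machine × List ℕ) (t : ℝ) (x : Fin 3 → ℝ) (i : Fin 3) :
    force ν (comp A start Mw) t x i = force ν A t x i +
      if i = 1 then 100 * ratVal (start Mw) * kappa⁻¹ * iteratedDeriv 1 rho (10 * t - 1)
      else 0 := by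
  unfold force comp
  by_cases hi : i = 1
  · simp only [hi, if_true, List.map_cons, List.sum_cons, startTerm_eval]
    ring
  · simp [hi]

theorem isForceCompiler (A : Fin 3 → List Term) {start : Machine × List ℕ → RatCode}
    (h : Computable start) (hA : ∀ i, ∀ τ ∈ A i, τ.Valid)
    (hA' : ∀ i, ∀ τ ∈ A i, τ.isPeriodic = true)
    (hrho : ∀ s : ℝ, 1 < s → iteratedDeriv 1 rho s = 0) :
    IsForceCompiler (comp A start) 1 where
  computable := comp_computable A h
  valid Mw i τ hτ := by
    unfold comp at hτ
    split_ifs at hτ with hi
    · rcases List.mem_cons.1 hτ with rfl | hτ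
      · exact startTerm_valid _
      · exact hA i τ hτ
    · exact hA i τ hτ
  vanish Mw i τ hτ hp ν t x ht := by
    unfold comp at hτ
    split_ifs at hτ with hi
    · rcases List.mem_cons.1 hτ with rfl | hτ
      · rw [startTerm_eval, hrho _ (by linarith), mul_zero]
      · rw [hA' i τ hτ] at hp
        exact absurd hp (by simp)
    · rw [hA' i τ hτ] at hp
      exact absurd hp (by simp)
  periodic M w w' i := by
    unfold comp
    split_ifs with hi
    · simp [startTerm_isPeriodic]
    · rfl

end Vale.Agent.P113.H947
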