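import Vale.Agent.P113.H947.Compile
import Vale.Agent.P113.H854.Sol
import Vale.Agent.P113.H982.Bridge

/-!
# P113: the velocity solves the equations with the force output by the compiler
-/

open Set
open scoped ContDiff

namespace Vale.Agent.P113.H947

open H854

/-- The directions of the five slots: start translation along `y`, then the four shears. -/
noncomputable def DD (dir : Fin 4 → Fin 3) : Fin 5 → E3 := Fin.cons (ee 1) fun j => ee (dir j)

/-- The five profiles: a constant, then the four shears. -/
noncomputable def FF (q : ℝ) (G : Fin 4 → E3 → ℝ) : Fin 5 → E3 → ℝ := Fin.cons (fun _ => q) G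

theorem deriv_th_zero (t : ℝ) :
    deriv (th 5 0) t = 100 * kappa⁻¹ * iteratedDeriv 1 rho (10 * t - 1) := by
  have h1 : th 5 0 = fun t => (10 / kappa) * rho (10 * t - 1) := by
    funext t
    simp only [th, win, gs]
    norm_num
    rfl
  have h2 : HasDerivAt rho (deriv rho (10 * t - 1)) (10 * t - 1) :=
    ((H854.rho_contDiff (n := 1)).differentiable one_ne_zero _).hasDerivAt
  have h3 : HasDerivAt (fun t : ℝ => 10 * t - 1) 10 t := by
    simpa using ((hasDerivAt_id t).const_mul 10).sub_const 1
  have h4 := (h2.comp t h3).const_mul (10 / kappa)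
  rw [h1]
  have h5 : deriv (fun t => (10 / kappa) * rho (10 * t - 1)) t =
      (10 / kappa) * (deriv rho (10 * t - 1) * 10) := h4.deriv
  rw [h5, iteratedDeriv_one]
  ring

theorem iteratedDeriv_rho_eq_zero (s : ℝ) (hs : 1 < s) : iteratedDeriv 1 rho s = 0 := by
  rw [iteratedDeriv_one]
  have h : rho =ᶠ[nhds s] fun _ => 0 := by
    filter_upwards [Ioi_mem_nhds hs] with r hr
    exact H854.rho_zero ((le_of_lt hr).trans (le_abs_self r))
  rw [h.deriv_eq]
  simp

theorem lap_const (q : ℝ) (x : E3) : lap (fun _ => q) x = 0 := by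
  have h : ∀ i, pd i (fun _ : E3 => q) = fun _ => 0 := by
    intro i
    funext y
    simp [pd]
  simp [lap, h, pd]

/-- The force of the compiler is the force of the velocity. -/
theorem force_eq {dir : Fin 4 → Fin 3} {G : Fin 4 → E3 → ℝ} {A : Fin 3 → List Term}
    (hA : ∀ ν t x i, force ν A t x i = ∑ j : Fin 4, (deriv (th 5 j.succ) t * G j x -
      ν * (th 5 j.succ t * lap (G j) x)) * ee (dir j) i)
    (start : Machine × List ℕ → RatCode) (Mw : Machine × List ℕ) (ν : ℝ) :
    force ν (comp A start Mw) =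
      forceOf (DD dir) (th 5) (fun k => deriv (th 5 k)) (FF (ratVal (start Mw)) G) ν := by
  funext t x i
  rw [force_comp, hA]
  simp only [forceOf, Pi.sub_apply, Pi.smul_apply, smul_eq_mul, vel_apply]
  have h5 : ∀ f : Fin 5 → ℝ, ∑ k, f k = f 0 + ∑ j : Fin 4, f j.succ := fun f =>
    Fin.sum_univ_succ f
  rw [h5, h5]
  simp only [DD, FF, Fin.cons_zero, Fin.cons_succ, lap_const, deriv_th_zero]
  have h : ∀ j : Fin 4, (deriv (th 5 j.succ) t * G j x - ν * (th 5 j.succ t * lap (G j) x)) *
      ee (dir j) i = deriv (th 5 j.succ) t * G j x * ee (dir j) i -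
        ν * (th 5 j.succ t * lap (G j) x * ee (dir j) i) := fun j => by ring
  simp only [h, Finset.sum_sub_distrib, ← Finset.mul_sum]
  by_cases hi : i = 1
  · subst hi
    have h6 : ee 1 1 = 1 := by simp [ee]
    rw [h6, if_pos rfl]
    ring
  · have h6 : ee 1 i = 0 := by simp [ee, hi]
    rw [h6, if_neg hi]
    ring

/-- The velocity, with zero pressure, is the unique smooth solution for the force output by the
compiler. -/
theorem isUniqueSmoothSolution {dir : Fin 4 → Fin 3} {G : Fin 4 → E3 → ℝ} {A : Fin 3 → List Term}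
    (hA : ∀ ν t x i, force ν A t x i = ∑ j : Fin 4, (deriv (th 5 j.succ) t * G j x -
      ν * (th 5 j.succ t * lap (G j) x)) * ee (dir j) i)
    (hG : ∀ j, ContDiff ℝ ∞ (G j)) (hp : ∀ j, Per3 (G j))
    (hi : ∀ j x (s : ℝ), G j (x + s • ee (dir j)) = G j x)
    (start : Machine × List ℕ → RatCode) (Mw : Machine × List ℕ) {ν : ℝ} (hν : 0 < ν) :
    IsUniqueSmoothSolution ν (force ν (comp A start Mw))
      (vel (DD dir) (th 5) (FF (ratVal (start Mw)) G)) (fun _ _ => 0) := by
  have hF : ∀ k, ContDiff ℝ ∞ (FF (ratVal (start Mw)) G k) := by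
    intro k
    refine Fin.cases ?_ (fun j => ?_) k
    · simpa [FF] using contDiff_const
    · simpa [FF] using hG j
  have hP : ∀ k, Per3 (FF (ratVal (start Mw)) G k) := by
    intro k
    refine Fin.cases ?_ (fun j => ?_) k
    · intro x m; simp [FF]
    · simpa [FF] using hp j
  have hI : ∀ k x (s : ℝ), FF (ratVal (start Mw)) G k (x + s • DD dir k) =
      FF (ratVal (start Mw)) G k x := by
    intro k
    refine Fin.cases ?_ (fun j => ?_) k
    · intro x s; simp [FF]
    · intro x s; simpa [FF, DD] using hi j x s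
  have hc := slot_isClassicalSolution (N := 5) (dir := DD dir) (F := FF (ratVal (start Mw)) G)
    ν (Ici 0) hF hP hI
  rw [← force_eq hA start Mw ν] at hc
  exact ⟨slot_contDiffOn hF _, contDiffOn_const, hc, H982.unique_classical hν.le hc⟩

end Vale.Agent.P113.H947
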